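import Vale.Agent.P074.Bdl.B1

open MeasureTheory Set
open scoped ENNReal NNReal

namespace Vale.Agent.Results.P074.AlphaStar

open Vale.Agent.P074

/-- For every `d ≥ 2` the critical stability exponent is `1/3`, and it is attained. -/
theorem result (d : ℕ) (hd : 2 ≤ d) :
    IsGreatest {α : ℝ | 0 < α ∧ α ≤ 1 ∧ Admissible d α} (1 / 3) :=
  isGreatest_third d hd

end Vale.Agent.Results.P074.AlphaStar
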